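-- KEEP
import Claimed.Agent.R256.Base.Cyl
import Claimed.Agent.R256.Base.RndCl
import Claimed.Agent.R256.Base.RndWav
import Claimed.Agent.R256.Soft.Doc
import Claimed.Agent.R256.Rnd.Defs

/-!
# Row 256 (LS paper) : THE HUB, definitions          (architect helper207; prefix `hub_`)

The named `Prop`s of the top chain.   OWNERS import THIS file and deliver closed theorems (sorries only in contract files) of exactly these types; `R256/Hub.lean` imports the owners and proves `hub_main`.

    `HubP4` (thm:round, waves)      ⟸ `HubR1w`, `rn_wave`, `HubP5`, `HubP6`, `HubP7`         R1 = Re (helper223, helper159): theorem `re_hub_r1w : HubR1w`;   R2 = Rnd (helper38): `rn_wave`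
    `HubP5` (thm:round, classical)  ⟸ `HubRc`, `HubP6`                                       Re + Rnd, classical twin (helper223, helper38): theorem `re_hub_rc : HubRc`
    `HubP6`, `HubP7` (thm:cylinder) ⟸ `HubQ1 hyb X`, `HubQ2 hyb X`                            Q1 = Soft/Exit (helper19): `sf_hub_q1 : ∀ hyb, HubQ1 hyb (hubX hyb)`;   Q2 = Act/Main (helper277): `ac_hub_q2 : ∀ hyb, HubQ2 hyb (hubX hyb)`
`X` = the slot of further rigid predicates on the operator-free configuration ((mem) of Chan ...): ANY predicate on which Q1 and Q2 agree; helper19 defines it (name of his choice) in a file that both import.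
-/

set_option autoImplicit false

namespace Claimed.Agent.R256


/-- thm:round, waves -/
def HubP4 : Prop := ∀ η : ℝ, 0 < η → η < 1 → (rndWav η).Rate (100 * η)

/-- thm:round, classical -/
def HubP5 : Prop := ∀ η : ℝ, 0 < η → η < 1 → (rndCl η).Rate (100 * η)

/-- thm:cylinder, classical -/
def HubP6 : Prop := ∀ η : ℝ, 0 < η → η < 1 → (cylCl η).Rate (η / 2)

/-- thm:cylinder, hybrid -/
def HubP7 : Prop := ∀ η : ℝ, 0 < η → η < 1 → (cylHyb η).Rate (η / 2)

/-- the cylinder model -/
noncomputable def hubCyl (hyb : Bool) (η : ℝ) : Mdl := if hyb then cylHyb η else cylCl η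

/-- **Q1** (secs. 2-3): failure of the cylinder rate produces operator-free documented configurations of positive cost.
The hybrid half may use the classical bound (strict gap `Γ_hyb > Γ_cl`: 02 l.817, 06 l.1088; request of helper19). -/
def HubQ1 (hyb : Bool) (X : SfPar → SfDoc → ℝ → Prop) : Prop :=
  (hyb = true → HubP6) → ∀ η : ℝ, 0 < η → η < 1 → ¬ (hubCyl hyb η).Rate (η / 2) → ∃ Γ : ℝ, η / 2 < Γ ∧ SfExit hyb η Γ X

/-- **Q2** (secs. 4-6): there are no such configurations -/
def HubQ2 (hyb : Bool) (X : SfPar → SfDoc → ℝ → Prop) : Prop :=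
  ∀ η Γ : ℝ, 0 < η → η < 1 → η / 2 < Γ → ¬ SfExit hyb η Γ X

/-- **R1, waves** (secs. 7, 8A): failure of the round wave rate produces PROF for all parameters -/
def HubR1w : Prop :=
  HubP5 → HubP6 → HubP7 → ∀ η : ℝ, 0 < η → η < 1 → ¬ (rndWav η).Rate (100 * η) →
    ∃ A d Γ : ℝ, 1 ≤ A ∧ 0 < d ∧ d ≤ 1 ∧ 0 < Γ ∧ Γ ≤ d ∧
      ∀ (r N k0 M0 : ℕ) (e τ es : ℝ), 0 < e → 0 < τ → 0 < es → RnProf r N k0 3 M0 A d (1 + 3 * d - 2 * Γ) e τ es

/-- **R, classical** (secs. 7, 8, classical halves) -/
def HubRc : Prop := HubP6 → HubP5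

theorem hub_eqns_cite : True := by
  have := @HubP4.eq_1
  have := @HubP5.eq_1
  have := @HubP6.eq_1
  have := @HubP7.eq_1
  have := @hubCyl.eq_1
  have := @HubQ1.eq_1
  have := @HubQ2.eq_1
  have := @HubR1w.eq_1
  have := @HubRc.eq_1
  trivial

theorem hub_cyl (hyb : Bool) (X : SfPar → SfDoc → ℝ → Prop) (h1 : HubQ1 hyb X) (h2 : HubQ2 hyb X) (h6 : hyb = true → HubP6) (η : ℝ) (h0 : 0 < η)
    (hη : η < 1) : (hubCyl hyb η).Rate (η / 2) := by
  by_contra hn
  obtain ⟨Γ, hΓ, hE⟩ := h1 h6 η h0 hη hn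
  exact h2 η Γ h0 hη hΓ hE

theorem hub_p6 (X : SfPar → SfDoc → ℝ → Prop) (h1 : HubQ1 false X) (h2 : HubQ2 false X) : HubP6 := fun η h0 hη => by
  simpa [hubCyl] using hub_cyl false X h1 h2 (fun h => by simp at h) η h0 hη

theorem hub_p7 (X : SfPar → SfDoc → ℝ → Prop) (h1 : HubQ1 true X) (h2 : HubQ2 true X) (h6 : HubP6) : HubP7 := fun η h0 hη => by
  simpa [hubCyl] using hub_cyl true X h1 h2 (fun _ => h6) η h0 hη

end Claimed.Agent.R256
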