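-- KEEP
import Claimed.Agent.R256.HubDefs
import Claimed.Agent.R256.Rnd.Wave
import Claimed.Agent.R256.Phys.Contract
import Claimed.Agent.R256.Act.Main
import Claimed.Agent.R256.Re.Main
import Claimed.Agent.R256.Soft.HubQ1

/-!
# Row 256 (LS paper) : THE HUB          (architect helper207; prefix `hub_`)

The compile-checked top chain (definitions: `R256/HubDefs.lean`).

    S0496  ⟸ `RoundRate`                                   `ph_s0496`                      Phys + Top        (helper73, helper163)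
    `RoundRate` ⟸ `HubP4`                                   `hub_roundRate`
    `HubP4` ⟸ `HubR1w`, `rn_wave`, `HubP5`, `HubP6`, `HubP7`  `hub_p4`
    `HubP5` ⟸ `HubRc`, `HubP6`;      `HubP6`, `HubP7` ⟸ `HubQ1`, `HubQ2`     (`hub_p6`, `hub_p7`)
-/

set_option autoImplicit false

namespace Claimed.Agent.R256

open MeasureTheory Claims.C0424
open scoped SchwartzMap

theorem hub_p4 (h1 : HubR1w) (h5 : HubP5) (h6 : HubP6) (h7 : HubP7) : HubP4 := by
  intro η h0 hη
  by_contra hn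
  obtain ⟨A, d, Γ, hA, hd0, hd1, hΓ, hΓd, hP⟩ := h1 h5 h6 h7 η h0 hη hn
  obtain ⟨r, N, k0, M0, e, τ, es, he, hτ, hes, hno⟩ := rn_wave A d Γ hA hd0 hd1 hΓ hΓd
  exact hno (hP r N k0 M0 e τ es he hτ hes)

theorem hub_roundRate (h : HubP4) : RoundRate :=
  ⟨1, one_pos, fun η h0 hη => Mdl.bs_rateF_of_rate _ (h η h0 hη)⟩

/-- **THE CHAIN**, from the six contracts -/
theorem hub_chain (Xc Xh : SfPar → SfDoc → ℝ → Prop) (q1c : HubQ1 false Xc) (q2c : HubQ2 false Xc) (q1h : HubQ1 true Xh)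
    (q2h : HubQ2 true Xh) (rc : HubRc) (r1w : HubR1w) (ε : ℝ) (hε : 0 < ε) :
    ∃ C : ℝ, ∀ f : 𝓢(E3, ℂ),
      eLpNorm (fun z : E3 × ℝ => halfWave f z.2 z.1) 3 stμ ≤ ENNReal.ofReal C * eLpNorm (besselPotential ε f) 3 volume :=
  have h6 := hub_p6 Xc q1c q2c
  have h7 := hub_p7 Xh q1h q2h h6
  ph_s0496 (hub_roundRate (hub_p4 r1w (rc h6) h6 h7)) ε hε

/-- **S0496**, no hypothesis -/
theorem hub_main (ε : ℝ) (hε : 0 < ε) :
    ∃ C : ℝ, ∀ f : 𝓢(E3, ℂ),
      eLpNorm (fun z : E3 × ℝ => halfWave f z.2 z.1) 3 stμ ≤ ENNReal.ofReal C * eLpNorm (besselPotential ε f) 3 volume :=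
  hub_chain (hubX false) (hubX true) (sf_hub_q1 false) (ac_hub_q2 false) (sf_hub_q1 true) (ac_hub_q2 true) re_hub_rc re_hub_r1w ε hε

end Claimed.Agent.R256
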